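import Vale.Agent.P136.Sm

/-!
# The Cauchy-Pompeiu formula and smooth families of bounded functions
-/

open MeasureTheory Set Metric
open scoped ContDiff BoundedContinuousFunction Real

noncomputable section

namespace Vale.Agent.P136

section Aux

open Filter Topology

variable {W : Type} [NormedAddCommGroup W]

lemma pomp_intOn {G : ℝ × ℝ → W} (hG : Continuous G) {R : ℝ}
    (h0 : ∀ p : ℝ × ℝ, R < p.1 → G p = 0) :
    Integrable G (((volume : Measure ℝ).restrict (Ioi 0)).prod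
      ((volume : Measure ℝ).restrict (Ioo (-π) π))) := by
  rw [Measure.prod_restrict]
  have h1 : IntegrableOn G (Icc 0 R ×ˢ Icc (-π) π) ((volume : Measure ℝ).prod volume) :=
    hG.continuousOn.integrableOn_compact (isCompact_Icc.prod isCompact_Icc)
  refine h1.of_forall_diff_eq_zero (measurableSet_Ioi.prod measurableSet_Ioo) ?_
  rintro p ⟨⟨h2, h3⟩, h4⟩
  refine h0 p (lt_of_not_ge fun h5 => h4 ⟨⟨le_of_lt h2, h5⟩, Ioo_subset_Icc_self h3⟩)

/-- The point of the unit circle with argument `t`. -/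
def pompE (t : ℝ) : ℂ := Real.cos t + Real.sin t * Complex.I

lemma pompE_cont : Continuous pompE := by unfold pompE; fun_prop

lemma pompE_norm (t : ℝ) : ‖pompE t‖ = 1 := by
  rw [pompE, Complex.ofReal_cos, Complex.ofReal_sin, Complex.norm_cos_add_sin_mul_I]

lemma pompE_deriv (t : ℝ) : HasDerivAt pompE (Complex.I * pompE t) t := by
  have h := (Real.hasDerivAt_cos t).ofReal_comp.add
    ((Real.hasDerivAt_sin t).ofReal_comp.mul_const Complex.I)
  refine h.congr_deriv ?_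
  rw [pompE]
  push_cast
  linear_combination (-Complex.sin t) * Complex.I_mul_I

lemma pompE_inv (t : ℝ) : (pompE t)⁻¹ = Real.cos t - Real.sin t * Complex.I := by
  refine inv_eq_of_mul_eq_one_right ?_
  rw [pompE]
  push_cast
  linear_combination (-(Complex.sin t) ^ 2) * Complex.I_mul_I + Complex.cos_sq_add_sin_sq (t : ℂ)

lemma fam_unif {G : E3 → E3 → W} (hG : Continuous (Function.uncurry G))
    (hs : ∀ ρ : ℝ, ∃ ρ' : ℝ, ∀ h x, ‖h‖ ≤ ρ → ρ' ≤ ‖x‖ → G h x = 0) (a : E3) {ε : ℝ}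
    (hε : 0 < ε) : ∀ᶠ h in 𝓝 a, ∀ x, ‖G h x - G a x‖ ≤ ε := by
  obtain ⟨ρ', hρ⟩ := hs (‖a‖ + 1)
  have h1 : ∀ᶠ h in 𝓝 a, ∀ x ∈ closedBall (0 : E3) ρ', ‖G h x - G a x‖ ≤ ε := by
    refine (isCompact_closedBall (0 : E3) ρ').eventually_forall_of_forall_eventually
      (P := fun h x => ‖G h x - G a x‖ ≤ ε) fun y _ => ?_
    have hc : Continuous fun z : E3 × E3 => ‖G z.1 z.2 - G a z.2‖ :=
      (hG.sub (hG.comp (continuous_const.prodMk continuous_snd))).norm
    have h2 : ‖G (a, y).1 (a, y).2 - G a (a, y).2‖ < ε := by simpa using hε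
    exact (hc.continuousAt.eventually_lt continuousAt_const h2).mono fun z hz => hz.le
  have h2 : ∀ᶠ h in 𝓝 a, ‖h‖ < ‖a‖ + 1 :=
    continuous_norm.continuousAt.eventually_lt continuousAt_const (by linarith)
  filter_upwards [h1, h2] with h e1 e2 x
  by_cases hx : ‖x‖ ≤ ρ'
  · exact e1 x (mem_closedBall_zero_iff.2 hx)
  · rw [hρ h x e2.le (not_le.1 hx).le, hρ a x (by linarith) (not_le.1 hx).le, sub_zero, norm_zero]
    exact hε.le

lemma fam_ex {G : E3 → E3 → W} (hG : Continuous (Function.uncurry G))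
    (hs : ∀ ρ : ℝ, ∃ ρ' : ℝ, ∀ h x, ‖h‖ ≤ ρ → ρ' ≤ ‖x‖ → G h x = 0) :
    ∃ F : E3 → (E3 →ᵇ W), ∀ h x, F h x = G h x := by
  have key : ∀ h, ∃ f : E3 →ᵇ W, ∀ x, f x = G h x := by
    intro h
    obtain ⟨ρ', hρ⟩ := hs ‖h‖
    have hc : Continuous (G h) := hG.comp (continuous_const.prodMk continuous_id)
    have hk : HasCompactSupport (G h) :=
      HasCompactSupport.intro (isCompact_closedBall (0 : E3) ρ') fun x hx =>
        hρ h x le_rfl (not_le.1 fun h' => hx (mem_closedBall_zero_iff.2 h')).le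
    obtain ⟨C, hC⟩ := hc.bounded_above_of_compact_support hk
    exact ⟨BoundedContinuousFunction.ofNormedAddCommGroup (G h) hc C hC, fun _ => rfl⟩
  choose F hF using key
  exact ⟨F, hF⟩

variable [NormedSpace ℝ W]

lemma fam_dsm {Φ : E3 → E3 → W} (hΦ : ContDiff ℝ ∞ (Function.uncurry Φ)) :
    ContDiff ℝ ∞ (Function.uncurry fun h x => fderiv ℝ (fun k => Φ k x) h) := by
  have h1 : ContDiff ℝ ∞ (Function.uncurry fun (p : E3 × E3) (k : E3) => Φ k p.2) :=
    hΦ.comp (contDiff_snd.prodMk (contDiff_snd.comp contDiff_fst))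
  exact h1.fderiv (n := ∞) contDiff_fst (by simp)

lemma fam_dsupp {Φ : E3 → E3 → W}
    (hs : ∀ ρ : ℝ, ∃ ρ' : ℝ, ∀ h x, ‖h‖ ≤ ρ → ρ' ≤ ‖x‖ → Φ h x = 0) (ρ : ℝ) :
    ∃ ρ' : ℝ, ∀ h x, ‖h‖ ≤ ρ → ρ' ≤ ‖x‖ → fderiv ℝ (fun k => Φ k x) h = 0 := by
  obtain ⟨ρ', hρ⟩ := hs (ρ + 1)
  refine ⟨ρ', fun h x h1 h2 => ?_⟩
  have h3 : ∀ᶠ k in 𝓝 h, ‖k‖ < ρ + 1 :=
    continuous_norm.continuousAt.eventually_lt continuousAt_const (by linarith)
  have h4 : (fun k => Φ k x) =ᶠ[𝓝 h] fun _ => 0 := h3.mono fun k hk => hρ k x hk.le h2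
  rw [h4.fderiv_eq]
  simp

lemma fam_has {Φ : E3 → E3 → W} (hΦ : ContDiff ℝ ∞ (Function.uncurry Φ))
    (hs : ∀ ρ : ℝ, ∃ ρ' : ℝ, ∀ h x, ‖h‖ ≤ ρ → ρ' ≤ ‖x‖ → Φ h x = 0)
    {F : E3 → (E3 →ᵇ W)} (hF : ∀ h x, F h x = Φ h x) (a : E3) :
    ∃ L : E3 →L[ℝ] (E3 →ᵇ W), HasFDerivAt F L a ∧
      ∀ v x, L v x = fderiv ℝ (fun k => Φ k x) a v := by
  have hD := (fam_dsm hΦ).continuous
  obtain ⟨D, hD'⟩ := fam_ex hD (fam_dsupp hs)
  have hb : ∀ v x, ‖fderiv ℝ (fun k => Φ k x) a v‖ ≤ ‖D a‖ * ‖v‖ := fun v x => by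
    rw [← hD']
    exact (D a x).le_of_opNorm_le ((D a).norm_coe_le_norm x) v
  have hc : ∀ v, Continuous fun x => fderiv ℝ (fun k => Φ k x) a v := fun v =>
    (hD.comp (continuous_const.prodMk continuous_id)).clm_apply continuous_const
  let L0 : E3 →ₗ[ℝ] (E3 →ᵇ W) :=
    { toFun := fun v => BoundedContinuousFunction.ofNormedAddCommGroup _ (hc v) _ (hb v)
      map_add' := fun v w => BoundedContinuousFunction.ext fun x =>
        map_add (fderiv ℝ (fun k => Φ k x) a) v w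
      map_smul' := fun c v => BoundedContinuousFunction.ext fun x =>
        map_smul (fderiv ℝ (fun k => Φ k x) a) c v }
  refine ⟨LinearMap.toContinuousLinearMap L0, ?_, fun _ _ => rfl⟩
  rw [hasFDerivAt_iff_isLittleO, Asymptotics.isLittleO_iff]
  intro c hc0
  obtain ⟨δ, hδ, h1⟩ := Metric.eventually_nhds_iff_ball.1 (fam_unif hD (fam_dsupp hs) a hc0)
  filter_upwards [ball_mem_nhds a hδ] with h hh
  refine (BoundedContinuousFunction.norm_le (by positivity)).2 fun x => ?_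
  have hd : Differentiable ℝ fun k => Φ k x :=
    (hΦ.comp (contDiff_id.prodMk contDiff_const)).differentiable (by simp)
  have h2 := Convex.norm_image_sub_le_of_norm_fderiv_le' (fun k _ => hd k)
    (fun k hk => h1 k hk x) (convex_ball a δ) (mem_ball_self hδ) hh
  rw [← hF, ← hF] at h2
  exact h2

lemma fam_nat (n : ℕ) : ∀ {Φ : E3 → E3 → W}, ContDiff ℝ ∞ (Function.uncurry Φ) →
    (∀ ρ : ℝ, ∃ ρ' : ℝ, ∀ h x, ‖h‖ ≤ ρ → ρ' ≤ ‖x‖ → Φ h x = 0) →
    ∀ {F : E3 → (E3 →ᵇ W)}, (∀ h x, F h x = Φ h x) → ContDiff ℝ n F := by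
  induction n with
  | zero =>
    intro Φ hΦ hs F hF
    refine contDiff_zero.2 (continuous_iff_continuousAt.2 fun a => ?_)
    obtain ⟨L, hL, -⟩ := fam_has hΦ hs hF a
    exact hL.continuousAt
  | succ n ih =>
    intro Φ hΦ hs F hF
    rw [Nat.cast_succ, contDiff_succ_iff_fderiv_apply]
    refine ⟨fun a => (fam_has hΦ hs hF a).choose_spec.1.differentiableAt,
      fun h => absurd h (by simp), fun v => ?_⟩
    refine ih (Φ := fun h x => fderiv ℝ (fun k => Φ k x) h v)
      ((fam_dsm hΦ).clm_apply contDiff_const) (fun ρ => ?_) fun a x => ?_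
    · obtain ⟨ρ', hρ⟩ := fam_dsupp hs ρ
      exact ⟨ρ', fun h x h1 h2 => by rw [hρ h x h1 h2]; rfl⟩
    · obtain ⟨L, hL, h2⟩ := fam_has hΦ hs hF a
      rw [hL.fderiv, h2]

end Aux

variable {V : Type} [NormedAddCommGroup V] [NormedSpace ℂ V] [CompleteSpace V]

omit [CompleteSpace V] in
lemma pomp_alg (L : ℂ →L[ℝ] V) {r : ℝ} (hr : r ≠ 0) (t : ℝ) :
    r • (((r : ℂ) * pompE t)⁻¹ • (L 1 + Complex.I • L Complex.I)) =
      L (pompE t) + Complex.I • L (Complex.I * pompE t) := by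
  have e1 : pompE t = Real.cos t • (1 : ℂ) + Real.sin t • Complex.I := by simp [pompE]
  have e2 : Complex.I * pompE t = (-Real.sin t) • (1 : ℂ) + Real.cos t • Complex.I := by
    simp only [pompE, Complex.real_smul]
    push_cast
    linear_combination (Complex.sin t) * Complex.I_mul_I
  have hr' : (r : ℂ) ≠ 0 := Complex.ofReal_ne_zero.2 hr
  have f1 : L (pompE t) = (Real.cos t : ℂ) • L 1 + (Real.sin t : ℂ) • L Complex.I := by
    rw [e1, map_add, map_smul, map_smul, Complex.coe_smul, Complex.coe_smul]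
  have f2 : L (Complex.I * pompE t) =
      ((-Real.sin t : ℝ) : ℂ) • L 1 + (Real.cos t : ℂ) • L Complex.I := by
    rw [e2, map_add, map_smul, map_smul, Complex.coe_smul, Complex.coe_smul]
  rw [f1, f2, ← Complex.coe_smul, smul_smul, mul_inv, mul_inv_cancel_left₀ hr', pompE_inv]
  match_scalars
  · ring
  · linear_combination (-Complex.sin t) * Complex.I_mul_I

/-- Polar coordinates: the integrand times the radius is the radial derivative plus
`I / radius` times the angular derivative. -/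
theorem pomp {H : ℂ → V} (hH : ContDiff ℝ 1 H) (hc : HasCompactSupport H) :
    ∫ u : ℂ, u⁻¹ • (fderiv ℝ H u 1 + Complex.I • fderiv ℝ H u Complex.I) =
      (-(2 * π : ℂ)) • H 0 := by
  have hD : Continuous (fderiv ℝ H) := hH.continuous_fderiv one_ne_zero
  have hd : Differentiable ℝ H := hH.differentiable one_ne_zero
  obtain ⟨R, hR⟩ := hc.isCompact.isBounded.subset_closedBall 0
  have hn : ∀ r t : ℝ, ‖(r : ℂ) * pompE t‖ = |r| := fun r t => by
    rw [norm_mul, pompE_norm, mul_one, Complex.norm_real, Real.norm_eq_abs]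
  have hz : ∀ r t : ℝ, R < |r| → (r : ℂ) * pompE t ∉ tsupport H := fun r t h h' => by
    have := mem_closedBall_zero_iff.1 (hR h')
    rw [hn] at this
    linarith
  have hP : Continuous fun p : ℝ × ℝ => fderiv ℝ H ((p.1 : ℂ) * pompE p.2) :=
    hD.comp ((Complex.continuous_ofReal.comp continuous_fst).mul (pompE_cont.comp continuous_snd))
  have iA := pomp_intOn (G := fun p : ℝ × ℝ => fderiv ℝ H ((p.1 : ℂ) * pompE p.2) (pompE p.2))
    (hP.clm_apply (pompE_cont.comp continuous_snd)) (R := R) fun p hp => by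
      rw [fderiv_of_notMem_tsupport ℝ (hz _ _ (hp.trans_le (le_abs_self _)))]; rfl
  have iB := pomp_intOn (G := fun p : ℝ × ℝ =>
      Complex.I • fderiv ℝ H ((p.1 : ℂ) * pompE p.2) (Complex.I * pompE p.2))
    ((hP.clm_apply (continuous_const.mul (pompE_cont.comp continuous_snd))).const_smul _)
    (R := R) fun p hp => by
      rw [fderiv_of_notMem_tsupport ℝ (hz _ _ (hp.trans_le (le_abs_self _)))]; simp
  have eA : ∀ t : ℝ, ∫ r in Ioi (0 : ℝ), fderiv ℝ H ((r : ℂ) * pompE t) (pompE t) = -H 0 := by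
    intro t
    have h1 : ContDiff ℝ 1 fun r : ℝ => H ((r : ℂ) * pompE t) :=
      hH.comp (Complex.ofRealCLM.contDiff.mul contDiff_const)
    have h2 : HasCompactSupport fun r : ℝ => H ((r : ℂ) * pompE t) :=
      HasCompactSupport.intro (isCompact_closedBall (0 : ℝ) R) fun r hr =>
        image_eq_zero_of_notMem_tsupport (hz r t (not_le.1 fun h =>
          hr (mem_closedBall_zero_iff.2 h)))
    have h3 := h2.integral_Ioi_deriv_eq h1 0
    rw [Complex.ofReal_zero, zero_mul] at h3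
    rw [← h3]
    refine integral_congr_ae (Filter.Eventually.of_forall fun r => ?_)
    have h4 : HasDerivAt (fun r : ℝ => (r : ℂ) * pompE t) (pompE t) r := by
      simpa using (hasDerivAt_id r).ofReal_comp.mul_const (pompE t)
    exact ((hd _).hasFDerivAt.comp_hasDerivAt r h4).deriv.symm
  have eB : ∀ r : ℝ, r ≠ 0 → ∫ t in Ioo (-π) π,
      Complex.I • fderiv ℝ H ((r : ℂ) * pompE t) (Complex.I * pompE t) = 0 := by
    intro r hr
    have h1 : ∀ t : ℝ, HasDerivAt (fun t : ℝ => r⁻¹ • H ((r : ℂ) * pompE t))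
        (fderiv ℝ H ((r : ℂ) * pompE t) (Complex.I * pompE t)) t := by
      intro t
      have h2 := ((hd _).hasFDerivAt.comp_hasDerivAt t
        ((pompE_deriv t).const_mul (r : ℂ))).const_smul r⁻¹
      refine h2.congr_deriv ?_
      rw [← Complex.real_smul (x := r) (z := Complex.I * pompE t), map_smul, inv_smul_smul₀ hr]
    have h3 : Continuous fun t : ℝ => fderiv ℝ H ((r : ℂ) * pompE t) (Complex.I * pompE t) :=
      (hD.comp (continuous_const.mul pompE_cont)).clm_apply (continuous_const.mul pompE_cont)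
    have h4 : pompE π = pompE (-π) := by simp [pompE]
    rw [integral_smul, ← integral_Ioc_eq_integral_Ioo,
      ← intervalIntegral.integral_of_le (by linarith [Real.pi_pos]),
      intervalIntegral.integral_eq_sub_of_hasDerivAt (fun t _ => h1 t) (h3.intervalIntegrable _ _),
      h4, sub_self, smul_zero]
  rw [← Complex.integral_comp_polarCoord_symm]
  have e0 : polarCoord.target = Ioi (0 : ℝ) ×ˢ Ioo (-π) π := rfl
  rw [e0, setIntegral_congr_fun (measurableSet_Ioi.prod measurableSet_Ioo)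
    (g := fun p : ℝ × ℝ => fderiv ℝ H ((p.1 : ℂ) * pompE p.2) (pompE p.2) +
      Complex.I • fderiv ℝ H ((p.1 : ℂ) * pompE p.2) (Complex.I * pompE p.2))
    fun p hp => by
      rw [Complex.polarCoord_symm_apply]
      exact pomp_alg _ (ne_of_gt hp.1) p.2,
    Measure.volume_eq_prod, ← Measure.prod_restrict, integral_add iA iB,
    integral_prod_symm _ iA, integral_prod _ iB]
  have e1 : ∫ r in Ioi (0 : ℝ), ∫ t in Ioo (-π) π,
      Complex.I • fderiv ℝ H ((r : ℂ) * pompE t) (Complex.I * pompE t) = 0 :=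
    setIntegral_eq_zero_of_forall_eq_zero fun r hr => eB r (ne_of_gt hr)
  simp only [eA]
  rw [e1, add_zero, setIntegral_const, Real.volume_real_Ioo_of_le (by linarith [Real.pi_pos]),
    ← Complex.coe_smul, smul_neg, neg_smul]
  congr 2
  push_cast
  ring

omit [CompleteSpace V] in
/-- Induction on the order with `contDiff_succ_iff_fderiv_apply`; differentiability from the mean
value inequality and uniform continuity of the derivative on compact sets. -/
theorem fam {Φ : E3 → E3 → V} (hΦ : ContDiff ℝ ∞ (Function.uncurry Φ))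
    (hs : ∀ ρ : ℝ, ∃ ρ' : ℝ, ∀ h x, ‖h‖ ≤ ρ → ρ' ≤ ‖x‖ → Φ h x = 0)
    {F : E3 → (E3 →ᵇ V)} (hF : ∀ h x, F h x = Φ h x) : ContDiff ℝ ∞ F :=
  contDiff_infty.2 fun n => fam_nat n hΦ hs hF

end Vale.Agent.P136
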