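import Mathlib

/-!
# Differential algebra of the elasticity system
-/

set_option linter.unusedSimpArgs false

noncomputable section

namespace Vale.Agent.P136

/-- Three commuting derivations. -/
structure Der (K R : Type*) [CommRing K] [CommRing R] [Algebra K R] where
  d : Fin 3 → Derivation K R R
  comm : ∀ i j f, d i (d j f) = d j (d i f)

/-- Moduli in a ring: `μ = n ^ 2`, `c = (λ + μ) / μ`. -/
structure Lame (R : Type*) [CommRing R] where
  n : R
  ni : R
  c : R
  ci : R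
  ki : R
  n_ni : n * ni = 1
  c_ci : c * ci = 1
  k_ki : (c + 1) * ki = 1

namespace Lame

variable {R : Type*} [CommRing R] (L : Lame R)

def mu : R := L.n ^ 2
def lam : R := (L.c - 1) * L.mu
def m : R := L.ni ^ 2
/-- `a = (λ + μ) / (λ + 2 μ)`. -/
def a : R := L.c * L.ki

lemma mu_m : L.mu * L.m = 1 := by
  unfold mu m; rw [← mul_pow, L.n_ni, one_pow]

/-- Transport along a ring homomorphism. -/
def map {S : Type*} [CommRing S] (f : R →+* S) : Lame S where
  n := f L.n
  ni := f L.ni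
  c := f L.c
  ci := f L.ci
  ki := f L.ki
  n_ni := by rw [← map_mul, L.n_ni, map_one]
  c_ci := by rw [← map_mul, L.c_ci, map_one]
  k_ki := by rw [← map_one f, ← map_add, ← map_mul, L.k_ki]

lemma map_mu {S : Type*} [CommRing S] (f : R →+* S) : (L.map f).mu = f L.mu := by
  simp [mu, map]

lemma map_lam {S : Type*} [CommRing S] (f : R →+* S) : (L.map f).lam = f L.lam := by
  simp [lam, mu, map]

end Lame

namespace Der

variable {K R : Type*} [CommRing K] [CommRing R] [Algebra K R] (X : Der K R) (L : Lame R)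

lemma d_mul (j : Fin 3) (f g : R) : X.d j (f * g) = X.d j f * g + f * X.d j g := by
  rw [Derivation.leibniz, smul_eq_mul, smul_eq_mul]; ring

lemma d_two (j : Fin 3) : X.d j (2 : R) = 0 := by
  rw [← one_add_one_eq_two, map_add, Derivation.map_one_eq_zero, add_zero]

lemma d_one (j : Fin 3) : X.d j (1 : R) = 0 := Derivation.map_one_eq_zero _

lemma d_alg (j : Fin 3) (k : K) : X.d j (algebraMap K R k) = 0 := Derivation.map_algebraMap _ _

lemma c10 (f : R) : X.d 1 (X.d 0 f) = X.d 0 (X.d 1 f) := X.comm _ _ _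
lemma c20 (f : R) : X.d 2 (X.d 0 f) = X.d 0 (X.d 2 f) := X.comm _ _ _
lemma c21 (f : R) : X.d 2 (X.d 1 f) = X.d 1 (X.d 2 f) := X.comm _ _ _

/-- `g = ∇ μ / μ`. -/
def g (j : Fin 3) : R := 2 * L.ni * X.d j L.n
def gam (i j : Fin 3) : R := X.d i (X.g L j) - X.g L i * X.g L j
def h (i : Fin 3) : R := X.d i L.c + (L.c - 1) * X.g L i
def div (U : Fin 3 → R) : R := ∑ i, X.d i (U i)
def lap (f : R) : R := ∑ j, X.d j (X.d j f)
/-- Directional derivative along a vector of ring elements. -/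
def D (z : Fin 3 → R) (f : R) : R := ∑ j, z j * X.d j f
/-- Stress tensor. -/
def sig (U : Fin 3 → R) (i j : Fin 3) : R :=
  (if i = j then L.lam * X.div U else 0) + L.mu * (X.d j (U i) + X.d i (U j))
/-- The elasticity operator. -/
def Lop (U : Fin 3 → R) (i : Fin 3) : R := ∑ j, X.d j (X.sig L U i j)
/-- Energy density. -/
def en (U V : Fin 3 → R) : R := ∑ i, ∑ j, X.sig L U i j * X.d j (V i)
def P1 (U : Fin 3 → R) (e : R) (i : Fin 3) : R :=
  X.lap (U i) + L.c * X.d i e + ∑ j, (X.d j (U i) + X.d i (U j)) * X.g L j + e * X.h L i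
def P2 (U : Fin 3 → R) (e : R) : R :=
  (L.c + 1) * X.lap e + 2 * ∑ j, X.d j L.c * X.d j e +
    ∑ i, ∑ j, (X.d j (U i) + X.d i (U j)) * X.gam L i j +
      (X.div (X.h L) - ∑ i, X.g L i * X.h L i) * e
def T (w : Fin 3 → R) (F : R) (i : Fin 3) : R := L.m * (w i - X.d i F - X.g L i * F)
def Qu (w : Fin 3 → R) (F : R) (i : Fin 3) : R :=
  X.lap (w i) - ∑ j, X.d j (X.g L j * w i + X.g L i * w j + 2 * X.gam L i j * F)
def Qd (w : Fin 3 → R) (F : R) : R :=
  (L.c + 1) * X.lap F - L.c * X.div w +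
    (L.c - 1) * (∑ j, X.g L j * w j + (∑ j, X.gam L j j) * F)
/-- `t = z . g`. -/
def t (z : Fin 3 → R) : R := ∑ j, z j * X.g L j
def T1 (z U : Fin 3 → R) (e : R) (i : Fin 3) : R :=
  2 * X.D z (U i) + L.c * z i * e + X.t L z * U i + z i * ∑ j, X.g L j * U j
def T2 (z U : Fin 3 → R) (e : R) : R :=
  2 * (L.c + 1) * X.D z e + 2 * X.D z L.c * e + 2 * ∑ i, ∑ j, z j * U i * X.gam L i j
def Ru (z w : Fin 3 → R) (F : R) (i : Fin 3) : R :=
  2 * X.D z (w i) - X.t L z * w i - X.g L i * ∑ j, z j * w j - 2 * (∑ j, X.gam L i j * z j) * F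
def Rd (z w : Fin 3 → R) (F : R) : R :=
  2 * (L.c + 1) * X.D z F - L.c * ∑ j, z j * w j

lemma d_ni (j : Fin 3) : X.d j L.ni = - L.ni ^ 2 * X.d j L.n := by
  have h := congrArg (X.d j) L.n_ni
  rw [d_mul, d_one] at h
  linear_combination L.ni * h - X.d j L.ni * L.n_ni

lemma d_n (j : Fin 3) : 2 * X.d j L.n = L.n * X.g L j := by
  unfold g; linear_combination (-2 * X.d j L.n) * L.n_ni

lemma d_ni' (j : Fin 3) : 2 * X.d j L.ni = - L.ni * X.g L j := by
  rw [d_ni]; unfold g; ring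

lemma d_mu (j : Fin 3) : X.d j L.mu = L.mu * X.g L j := by
  unfold Lame.mu; rw [sq, d_mul]; linear_combination L.n * X.d_n L j

lemma d_m (j : Fin 3) : X.d j L.m = - L.m * X.g L j := by
  unfold Lame.m; rw [sq, d_mul]; linear_combination L.ni * X.d_ni' L j

lemma d_ki (j : Fin 3) : X.d j L.ki = - L.ki ^ 2 * X.d j L.c := by
  have h := congrArg (X.d j) L.k_ki
  rw [d_mul, d_one, map_add, d_one] at h
  linear_combination L.ki * h - X.d j L.ki * L.k_ki

lemma d_lam (j : Fin 3) : X.d j L.lam = L.mu * X.h L j := by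
  unfold Lame.lam h; rw [d_mul, d_mu, map_sub, d_one]; ring

lemma d_g (i j : Fin 3) : X.d i (X.g L j) = X.d j (X.g L i) := by
  unfold g
  simp only [d_mul, d_two, d_ni, X.comm i j]; ring

lemma g10 : X.d 1 (X.g L 0) = X.d 0 (X.g L 1) := X.d_g L _ _
lemma g20 : X.d 2 (X.g L 0) = X.d 0 (X.g L 2) := X.d_g L _ _
lemma g21 : X.d 2 (X.g L 1) = X.d 1 (X.g L 2) := X.d_g L _ _

lemma gam_symm (i j : Fin 3) : X.gam L i j = X.gam L j i := by
  unfold gam; rw [d_g]; ring

lemma D_add (z : Fin 3 → R) (f f' : R) : X.D z (f + f') = X.D z f + X.D z f' := by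
  simp only [D, map_add, mul_add, Finset.sum_add_distrib]

lemma D_sub (z : Fin 3 → R) (f f' : R) : X.D z (f - f') = X.D z f - X.D z f' := by
  simp only [D, map_sub, mul_sub, Finset.sum_sub_distrib]

lemma D_neg (z : Fin 3 → R) (f : R) : X.D z (-f) = - X.D z f := by
  simp only [D, map_neg, mul_neg, Finset.sum_neg_distrib]

lemma D_zero (z : Fin 3 → R) : X.D z 0 = 0 := by simp [D]

lemma D_one (z : Fin 3 → R) : X.D z 1 = 0 := by simp [D]

lemma D_two (z : Fin 3 → R) : X.D z 2 = 0 := by simp [D, d_two]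

lemma D_alg (z : Fin 3 → R) (k : K) : X.D z (algebraMap K R k) = 0 := by simp [D]

lemma D_mul (z : Fin 3 → R) (f f' : R) : X.D z (f * f') = X.D z f * f' + f * X.D z f' := by
  simp only [D, d_mul, Fin.sum_univ_three]; ring

lemma D_smul (z : Fin 3 → R) (k : K) (f : R) : X.D z (k • f) = k • X.D z f := by
  simp only [D, Derivation.map_smul, Finset.smul_sum, mul_smul_comm]

lemma D_sum {ι : Type*} (z : Fin 3 → R) (s : Finset ι) (f : ι → R) :
    X.D z (∑ i ∈ s, f i) = ∑ i ∈ s, X.D z (f i) := by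
  simp only [D, map_sum, Finset.mul_sum]; exact Finset.sum_comm

/-- Green's identity. -/
lemma green (U V : Fin 3 → R) :
    X.en L U V = X.div (fun j => ∑ i, X.sig L U i j * V i) - ∑ i, X.Lop L U i * V i := by
  simp only [en, div, Lop, Fin.sum_univ_three, map_add, d_mul]; ring

lemma en_symm (U V : Fin 3 → R) : X.en L U V = X.en L V U := by
  simp [en, sig, div, Fin.sum_univ_three]; ring

lemma en_eq (U V : Fin 3 → R) : 2 * X.en L U V = 2 * L.lam * (X.div U * X.div V) +
    L.mu * ∑ i, ∑ j, (X.d j (U i) + X.d i (U j)) * (X.d j (V i) + X.d i (V j)) := by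
  simp [en, sig, div, Fin.sum_univ_three]; ring

lemma I1 (U : Fin 3 → R) (i : Fin 3) : X.Lop L U i = L.mu * X.P1 L U (X.div U) i := by
  fin_cases i <;>
  simp [Lop, sig, P1, lap, div, Fin.sum_univ_three, d_mul, d_mu, d_lam, c10, c20, c21,
    -Derivation.leibniz] <;> unfold Lame.lam <;> ring

lemma I2 (U : Fin 3 → R) (e : R) :
    X.div (X.P1 L U e) - ∑ i, X.g L i * X.P1 L U e i - X.P2 L U e =
      X.lap (X.div U - e) + X.D (X.g L) (X.div U - e) := by
  simp only [P1, P2, lap, div, D, gam, h, Fin.sum_univ_three, d_mul, map_add, map_sub, d_one, c10,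
    c20, c21, g10, g20, g21]
  ring

lemma sig_T (w : Fin 3 → R) (F : R) (i j : Fin 3) :
    L.mu * X.d j (X.T L w F i) =
      X.d j (w i - X.d i F - X.g L i * F) - X.g L j * (w i - X.d i F - X.g L i * F) := by
  unfold T
  rw [d_mul, d_m]
  linear_combination (X.d j (w i - X.d i F - X.g L i * F) -
    X.g L j * (w i - X.d i F - X.g L i * F)) * L.mu_m

lemma I3 (w : Fin 3 → R) (F : R) (i : Fin 3) :
    X.Lop L (X.T L w F) i = X.Qu L w F i - X.d i (X.Qd L w F) := by
  have e : ∀ a b, X.sig L (X.T L w F) a b =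
      (if a = b then (L.c - 1) * ∑ k, L.mu * X.d k (X.T L w F k) else 0) +
        (L.mu * X.d b (X.T L w F a) + L.mu * X.d a (X.T L w F b)) := by
    intro a b
    simp only [sig, Lame.lam, div, Fin.sum_univ_three]
    split_ifs <;> ring
  simp only [Lop, e, sig_T]
  fin_cases i <;>
  simp [Qu, Qd, lap, div, gam, Fin.sum_univ_three, d_mul, d_two, c10, c20, c21, g10, g20, g21,
    -Derivation.leibniz] <;> ring

lemma I4 (Y w : Fin 3 → R) (F : R) :
    ∑ i, L.mu * Y i * X.T L w F i =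
      ∑ i, Y i * w i + F * (X.div Y - ∑ i, X.g L i * Y i) - X.div (fun i => F * Y i) := by
  have e : ∀ i, L.mu * Y i * X.T L w F i = Y i * (w i - X.d i F - X.g L i * F) := by
    intro i; unfold T
    linear_combination (Y i * (w i - X.d i F - X.g L i * F)) * L.mu_m
  simp only [e, div, Fin.sum_univ_three, d_mul]; ring

section Exp

variable {E : R} {z : Fin 3 → R} (hE : ∀ j, X.d j E = z j * E) (hz : ∀ i j, X.d i (z j) = 0)
  (hn : z 0 ^ 2 + z 1 ^ 2 + z 2 ^ 2 = 0)

include hE hz hn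

lemma lap_exp (f : R) : X.lap (E * f) = E * (X.lap f + 2 * X.D z f) := by
  simp only [lap, D, Fin.sum_univ_three, d_mul, map_add, hE, hz]
  linear_combination E * f * hn

lemma I5 (U : Fin 3 → R) (e : R) (i : Fin 3) :
    X.P1 L (fun k => E * U k) (E * e) i = E * (X.P1 L U e i + X.T1 L z U e i) := by
  simp only [P1, T1, t, X.lap_exp hE hz hn, Fin.sum_univ_three, d_mul, hE]; ring

lemma I6 (U : Fin 3 → R) (e : R) :
    X.P2 L (fun k => E * U k) (E * e) = E * (X.P2 L U e + X.T2 L z U e) := by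
  simp only [P2, T2, X.lap_exp hE hz hn, Fin.sum_univ_three, d_mul, hE, D, X.gam_symm L 1 0,
    X.gam_symm L 2 0, X.gam_symm L 2 1]
  ring

lemma I7u (w : Fin 3 → R) (F : R) (i : Fin 3) :
    X.Qu L (fun k => E * w k) (E * F) i = E * (X.Qu L w F i + X.Ru L z w F i) := by
  simp only [Qu, Ru, t, X.lap_exp hE hz hn, Fin.sum_univ_three, d_mul, map_add, hE, d_two]; ring

lemma I7d (w : Fin 3 → R) (F : R) :
    X.Qd L (fun k => E * w k) (E * F) = E * (X.Qd L w F + X.Rd L z w F) := by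
  simp only [Qd, Rd, div, X.lap_exp hE hz hn, Fin.sum_univ_three, d_mul, hE]; ring

end Exp

section Null

variable {z : Fin 3 → R} (hz : ∀ i j, X.d i (z j) = 0) (hn : z 0 ^ 2 + z 1 ^ 2 + z 2 ^ 2 = 0)

include hz hn

lemma I8a (U : Fin 3 → R) (e : R) :
    ∑ i, z i * X.T1 L z U e i = 2 * X.D z (∑ i, z i * U i) + X.t L z * ∑ i, z i * U i := by
  simp only [T1, t, D, Fin.sum_univ_three, d_mul, map_add, hz]
  linear_combination (L.c * e + (X.g L 0 * U 0 + X.g L 1 * U 1 + X.g L 2 * U 2)) * hn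

omit hn in
lemma I8b (U : Fin 3 → R) (e : R) :
    ∑ i, z i * X.P1 L U e i + X.div (X.T1 L z U e) - ∑ i, X.g L i * X.T1 L z U e i -
      X.T2 L z U e = 2 * X.D z (X.div U - e) + X.t L z * (X.div U - e) +
        X.lap (∑ i, z i * U i) + X.D (X.g L) (∑ i, z i * U i) := by
  simp only [P1, T1, T2, t, lap, div, D, gam, h, Fin.sum_univ_three, d_mul, map_add, map_sub, d_one,
    d_two, hz, c10, c20, c21, g10, g20, g21, map_zero]
  ring

omit hz hn in
lemma I9 (U w : Fin 3 → R) (e F : R) :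
    ∑ i, X.T1 L z U e i * w i + F * X.T2 L z U e =
      2 * X.D z (∑ i, U i * w i + (L.c + 1) * e * F) -
        (∑ i, U i * X.Ru L z w F i + e * X.Rd L z w F) := by
  simp only [T1, T2, Ru, Rd, t, D, Fin.sum_univ_three, d_mul, map_add, d_one]
  ring

omit hn in
lemma D_eq_div (f : R) : X.D z f = X.div (fun j => z j * f) := by
  simp only [D, div, d_mul, hz, zero_mul, zero_add]

end Null

end Der

end Vale.Agent.P136
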