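import Mathlib

/-!
# The elastic inverse boundary value problem in dimension three: definitions
-/

open MeasureTheory Set
open scoped ContDiff

noncomputable section

namespace Vale.Agent.P136

/-- Euclidean three-space. -/
abbrev E3 : Type := EuclideanSpace ℝ (Fin 3)

/-- The partial derivative in the `j`-th coordinate direction. -/
def pd (j : Fin 3) (f : E3 → ℝ) : E3 → ℝ :=
  fun x => fderiv ℝ f x (EuclideanSpace.single j (1 : ℝ))

/-- Smooth functions with compact support inside `Ω`. -/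
def IsTest (Ω : Set E3) (φ : E3 → ℝ) : Prop :=
  ContDiff ℝ ∞ φ ∧ HasCompactSupport φ ∧ tsupport φ ⊆ Ω

/-- A bounded connected open set with smooth boundary: near every boundary point it is the
positivity set of a smooth function with nonvanishing differential. -/
def SmoothDomain (Ω : Set E3) : Prop :=
  IsOpen Ω ∧ Bornology.IsBounded Ω ∧ IsConnected Ω ∧
    ∀ x ∈ frontier Ω, ∃ (U : Set E3) (ρ : E3 → ℝ), IsOpen U ∧ x ∈ U ∧ ContDiff ℝ ∞ ρ ∧
      fderiv ℝ ρ x ≠ 0 ∧ Ω ∩ U = {y | 0 < ρ y} ∩ U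

/-- Admissible moduli: smooth up to the boundary (restrictions of smooth functions on the whole
space), with `μ > 0` and `3 λ + 2 μ > 0` on the closure of `Ω`. -/
def Admissible (Ω : Set E3) (lam mu : E3 → ℝ) : Prop :=
  ContDiff ℝ ∞ lam ∧ ContDiff ℝ ∞ mu ∧ ∀ x ∈ closure Ω, 0 < mu x ∧ 0 < 3 * lam x + 2 * mu x

/-- The Sobolev space of vector fields on `Ω`: square integrable components `val i` with square
integrable weak partial derivatives `grad i j` of `val i` in direction `j`. -/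
structure H1 (Ω : Set E3) where
  val : Fin 3 → E3 → ℝ
  grad : Fin 3 → Fin 3 → E3 → ℝ
  val_mem : ∀ i, MemLp (val i) 2 (volume.restrict Ω)
  grad_mem : ∀ i j, MemLp (grad i j) 2 (volume.restrict Ω)
  weak : ∀ i j φ, IsTest Ω φ →
    ∫ x in Ω, val i x * pd j φ x = - ∫ x in Ω, grad i j x * φ x

/-- The elastic energy form evaluated on two gradient fields `A`, `B`:
the integral of `λ (tr A) (tr B) + 2 μ sym A : sym B`. -/
def form (Ω : Set E3) (lam mu : E3 → ℝ) (A B : Fin 3 → Fin 3 → E3 → ℝ) : ℝ :=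
  ∫ x in Ω, (lam x * ((∑ i, A i i x) * (∑ i, B i i x)) +
    2 * mu x * ∑ i, ∑ j, ((A i j x + A j i x) / 2) * ((B i j x + B j i x) / 2))

/-- Weak solutions of the elasticity system `div σ(u) = 0` in `Ω`. -/
def IsSol (Ω : Set E3) (lam mu : E3 → ℝ) (u : H1 Ω) : Prop :=
  ∀ φ : Fin 3 → E3 → ℝ, (∀ i, IsTest Ω (φ i)) →
    form Ω lam mu u.grad (fun i j => pd j (φ i)) = 0

/-- `u` and `v` have the same boundary trace: `u - v` lies in the closure of the test fields in
the Sobolev norm. -/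
def SameTrace (Ω : Set E3) (u v : H1 Ω) : Prop :=
  ∀ ε : ℝ, 0 < ε → ∃ φ : Fin 3 → E3 → ℝ, (∀ i, IsTest Ω (φ i)) ∧
    (∑ i, ∫ x in Ω, (u.val i x - v.val i x - φ i x) ^ 2) +
      (∑ i, ∑ j, ∫ x in Ω, (u.grad i j x - v.grad i j x - pd j (φ i) x) ^ 2) ≤ ε

/-- Equality of the displacement-to-traction maps: whenever `u₁`, `u₂` solve the two systems with
the same trace `f`, and `v` is any field (with trace `g`), the two pairings agree. -/
def SameDN (Ω : Set E3) (lam₁ mu₁ lam₂ mu₂ : E3 → ℝ) : Prop :=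
  ∀ u₁ u₂ v : H1 Ω, IsSol Ω lam₁ mu₁ u₁ → IsSol Ω lam₂ mu₂ u₂ → SameTrace Ω u₁ u₂ →
    form Ω lam₁ mu₁ u₁.grad v.grad = form Ω lam₂ mu₂ u₂.grad v.grad

end Vale.Agent.P136
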