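import Vale.Agent.P136.Defs
import Vale.Agent.P136.Alg

/-!
# The rings of smooth functions
-/

open MeasureTheory Set Metric
open scoped ContDiff

noncomputable section

namespace Vale.Agent.P136

/-- Coordinate vectors. -/
abbrev ev (j : Fin 3) : E3 := EuclideanSpace.single j (1 : ℝ)

section K

variable (K : Type) [RCLike K]

/-- Smooth functions on the whole space. -/
def Sm : Subalgebra K (E3 → K) where
  carrier := {f | ContDiff ℝ ∞ f}
  mul_mem' := fun {f g} (hf : ContDiff ℝ ∞ f) (hg : ContDiff ℝ ∞ g) => hf.mul hg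
  add_mem' := fun {f g} (hf : ContDiff ℝ ∞ f) (hg : ContDiff ℝ ∞ g) => hf.add hg
  algebraMap_mem' := fun c => (contDiff_const : ContDiff ℝ ∞ (fun _ : E3 => c))

variable {K}

lemma smo (f : Sm K) : ContDiff ℝ ∞ (f : E3 → K) := f.2

lemma sdi (f : Sm K) : Differentiable ℝ (f : E3 → K) := (smo f).differentiable (by simp)

lemma sco (f : Sm K) : Continuous (f : E3 → K) := (smo f).continuous

lemma contDiff_dir {V : Type*} [NormedAddCommGroup V] [NormedSpace ℝ V] {f : E3 → V}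
    (hf : ContDiff ℝ ∞ f) (v : E3) : ContDiff ℝ ∞ (fun x => fderiv ℝ f x v) :=
  (hf.fderiv_right (m := ∞) (by simp)).clm_apply contDiff_const

lemma dir_comm {V : Type*} [NormedAddCommGroup V] [NormedSpace ℝ V] {f : E3 → V}
    (hf : ContDiff ℝ ∞ f) (v w x : E3) :
    fderiv ℝ (fun y => fderiv ℝ f y v) x w = fderiv ℝ (fun y => fderiv ℝ f y w) x v := by
  have h1 : DifferentiableAt ℝ (fderiv ℝ f) x :=
    ((hf.fderiv_right (m := ∞) (by simp)).differentiable (by simp)) x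
  have e : ∀ u u' : E3, fderiv ℝ (fun y => fderiv ℝ f y u) x u' = fderiv ℝ (fderiv ℝ f) x u' u := by
    intro u u'
    rw [fderiv_clm_apply h1 (differentiableAt_const u)]; simp
  rw [e, e]
  exact ((hf.contDiffAt (x := x)).isSymmSndFDerivAt (by
    rw [minSmoothness_of_isRCLikeNormedField]; exact WithTop.coe_le_coe.2 le_top)).eq w v

variable (K)

/-- Partial derivative as a derivation. -/
def sd (j : Fin 3) : Derivation K (Sm K) (Sm K) :=
  Derivation.mk'
    { toFun := fun f => ⟨fun x => fderiv ℝ (f : E3 → K) x (ev j), contDiff_dir (smo f) _⟩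
      map_add' := fun f g => Subtype.ext (funext fun x => by
        have := fderiv_add (sdi f x) (sdi g x)
        change fderiv ℝ ((f : E3 → K) + (g : E3 → K)) x (ev j) = _
        rw [this]; rfl)
      map_smul' := fun c f => Subtype.ext (funext fun x => by
        have := fderiv_const_smul (sdi f x) c
        change fderiv ℝ (c • (f : E3 → K)) x (ev j) = _
        rw [this]; rfl) }
    (fun f g => Subtype.ext (funext fun x => by
      have := fderiv_mul (sdi f x) (sdi g x)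
      change fderiv ℝ ((f : E3 → K) * (g : E3 → K)) x (ev j) = _
      rw [this]; rfl))

/-- The three partial derivatives on smooth functions. -/
def derS : Der K (Sm K) where
  d := sd K
  comm := fun _ _ f => Subtype.ext (funext fun x => dir_comm (smo f) _ _ x)

variable {K}

lemma derS_apply (j : Fin 3) (f : Sm K) (x : E3) :
    ((derS K).d j f : E3 → K) x = fderiv ℝ (f : E3 → K) x (ev j) := rfl

end K

lemma derS_pd (j : Fin 3) (f : Sm ℝ) : ((derS ℝ).d j f : E3 → ℝ) = pd j f := rfl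

/-- Real smooth functions as complex ones. -/
def toC : Sm ℝ →+* Sm ℂ where
  toFun f := ⟨fun x => ((f : E3 → ℝ) x : ℂ), Complex.ofRealCLM.contDiff.comp (smo f)⟩
  map_one' := Subtype.ext (funext fun x => by simp)
  map_mul' f g := Subtype.ext (funext fun x => by simp)
  map_zero' := Subtype.ext (funext fun x => by simp)
  map_add' f g := Subtype.ext (funext fun x => by simp)

lemma toC_apply (f : Sm ℝ) (x : E3) : (toC f : E3 → ℂ) x = ((f : E3 → ℝ) x : ℂ) := rfl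

lemma toC_d (j : Fin 3) (f : Sm ℝ) : (derS ℂ).d j (toC f) = toC ((derS ℝ).d j f) := by
  refine Subtype.ext (funext fun x => ?_)
  have := (Complex.ofRealCLM.hasFDerivAt.comp x (sdi f x).hasFDerivAt).fderiv
  change fderiv ℝ (Complex.ofRealCLM ∘ (f : E3 → ℝ)) x (ev j) = _
  rw [this]; rfl

/-- Real part. -/
def reS (f : Sm ℂ) : Sm ℝ := ⟨fun x => ((f : E3 → ℂ) x).re, Complex.reCLM.contDiff.comp (smo f)⟩

/-- Imaginary part. -/
def imS (f : Sm ℂ) : Sm ℝ := ⟨fun x => ((f : E3 → ℂ) x).im, Complex.imCLM.contDiff.comp (smo f)⟩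

lemma re_add_im (f : Sm ℂ) : toC (reS f) + Complex.I • toC (imS f) = f := by
  refine Subtype.ext (funext fun x => ?_)
  change (((f : E3 → ℂ) x).re : ℂ) + Complex.I * (((f : E3 → ℂ) x).im : ℂ) = _
  rw [mul_comm]; exact Complex.re_add_im _

/-- Restriction to a closed ball. -/
def res (ρ : ℝ) : Sm ℂ →ₐ[ℂ] C(closedBall (0 : E3) ρ, ℂ) where
  toFun f := ⟨fun x => (f : E3 → ℂ) x, (sco f).comp continuous_subtype_val⟩
  map_one' := rfl
  map_mul' _ _ := rfl
  map_zero' := rfl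
  map_add' _ _ := rfl
  commutes' _ := rfl

/-- Restrictions of smooth functions to a closed ball, with the supremum norm. -/
def Rg (ρ : ℝ) : Type := (res ρ).range

instance (ρ : ℝ) : NormedCommRing (Rg ρ) := inferInstanceAs (NormedCommRing (res ρ).range)
instance (ρ : ℝ) : NormedAlgebra ℂ (Rg ρ) := inferInstanceAs (NormedAlgebra ℂ (res ρ).range)

/-- The restriction map onto `Rg ρ`. -/
def rs (ρ : ℝ) : Sm ℂ →ₐ[ℂ] Rg ρ := (res ρ).rangeRestrict

lemma rs_surj (ρ : ℝ) : Function.Surjective (rs ρ) := AlgHom.rangeRestrict_surjective _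

lemma rs_eq_iff {ρ : ℝ} {f g : Sm ℂ} :
    rs ρ f = rs ρ g ↔ ∀ x : E3, ‖x‖ ≤ ρ → (f : E3 → ℂ) x = (g : E3 → ℂ) x := by
  constructor
  · intro h x hx
    have h' : res ρ f = res ρ g := congrArg Subtype.val h
    exact congrArg (fun F : C(closedBall (0 : E3) ρ, ℂ) => F ⟨x, mem_closedBall_zero_iff.2 hx⟩) h'
  · intro h
    exact Subtype.ext (ContinuousMap.ext fun x => h x (mem_closedBall_zero_iff.1 x.2))

lemma norm_rs_le {ρ : ℝ} {f : Sm ℂ} {a : ℝ} (ha : 0 ≤ a) :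
    ‖rs ρ f‖ ≤ a ↔ ∀ x : E3, ‖x‖ ≤ ρ → ‖(f : E3 → ℂ) x‖ ≤ a := by
  change ‖res ρ f‖ ≤ a ↔ _
  rw [ContinuousMap.norm_le _ ha]
  exact ⟨fun h x hx => h ⟨x, mem_closedBall_zero_iff.2 hx⟩,
    fun h x => h x (mem_closedBall_zero_iff.1 x.2)⟩

lemma le_norm_rs {ρ : ℝ} (f : Sm ℂ) {x : E3} (hx : ‖x‖ ≤ ρ) : ‖(f : E3 → ℂ) x‖ ≤ ‖rs ρ f‖ :=
  (norm_rs_le (norm_nonneg _)).1 le_rfl x hx

lemma rs_d_congr {ρ : ℝ} (hρ : 0 < ρ) (j : Fin 3) {f g : Sm ℂ} (h : rs ρ f = rs ρ g) :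
    rs ρ ((derS ℂ).d j f) = rs ρ ((derS ℂ).d j g) := by
  rw [rs_eq_iff] at h ⊢
  have e : EqOn ((derS ℂ).d j f : E3 → ℂ) ((derS ℂ).d j g : E3 → ℂ) (ball 0 ρ) := by
    intro x hx
    have : (f : E3 → ℂ) =ᶠ[nhds x] (g : E3 → ℂ) := by
      filter_upwards [isOpen_ball.mem_nhds hx] with y hy
      exact h y (le_of_lt (by simpa using hy))
    simp only [derS_apply, this.fderiv_eq]
  have := e.closure (sco _) (sco _)
  rw [closure_ball _ hρ.ne'] at this
  intro x hx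
  exact this (by simpa using hx)

/-- A chosen smooth representative. -/
def rep {ρ : ℝ} (F : Rg ρ) : Sm ℂ := (rs_surj ρ F).choose

lemma rs_rep {ρ : ℝ} (F : Rg ρ) : rs ρ (rep F) = F := (rs_surj ρ F).choose_spec

lemma rd_rs {ρ : ℝ} (hρ : 0 < ρ) (j : Fin 3) (f : Sm ℂ) :
    rs ρ ((derS ℂ).d j (rep (rs ρ f))) = rs ρ ((derS ℂ).d j f) :=
  rs_d_congr hρ j (rs_rep _)

/-- Partial derivative on `Rg ρ`. -/
def rd {ρ : ℝ} (hρ : 0 < ρ) (j : Fin 3) : Derivation ℂ (Rg ρ) (Rg ρ) :=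
  Derivation.mk'
    { toFun := fun F => rs ρ ((derS ℂ).d j (rep F))
      map_add' := fun F G => by
        obtain ⟨f, rfl⟩ := rs_surj ρ F
        obtain ⟨g, rfl⟩ := rs_surj ρ G
        rw [← map_add, rd_rs hρ, rd_rs hρ, rd_rs hρ, map_add, map_add]
      map_smul' := fun c F => by
        obtain ⟨f, rfl⟩ := rs_surj ρ F
        rw [← map_smul, rd_rs hρ, rd_rs hρ, Derivation.map_smul, map_smul, RingHom.id_apply] }
    (fun F G => by
      obtain ⟨f, rfl⟩ := rs_surj ρ F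
      obtain ⟨g, rfl⟩ := rs_surj ρ G
      change rs ρ ((derS ℂ).d j (rep (rs ρ f * rs ρ g))) =
        rs ρ f * rs ρ ((derS ℂ).d j (rep (rs ρ g))) + rs ρ g * rs ρ ((derS ℂ).d j (rep (rs ρ f)))
      rw [← map_mul, rd_rs hρ, rd_rs hρ, rd_rs hρ, Der.d_mul, map_add, map_mul, map_mul]
      ring)

lemma rd_apply {ρ : ℝ} (hρ : 0 < ρ) (j : Fin 3) (f : Sm ℂ) :
    rd hρ j (rs ρ f) = rs ρ ((derS ℂ).d j f) := rd_rs hρ j f

/-- The three partial derivatives on `Rg ρ`. -/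
def derR {ρ : ℝ} (hρ : 0 < ρ) : Der ℂ (Rg ρ) where
  d := rd hρ
  comm := fun i j F => by
    obtain ⟨f, rfl⟩ := rs_surj ρ F
    rw [rd_apply, rd_apply, rd_apply, rd_apply, (derS ℂ).comm]

lemma derR_rs {ρ : ℝ} (hρ : 0 < ρ) (j : Fin 3) (f : Sm ℂ) :
    (derR hρ).d j (rs ρ f) = rs ρ ((derS ℂ).d j f) := rd_apply hρ j f

/-- The exponential `exp (ζ . x)`. -/
def exS (ζ : Fin 3 → ℂ) : Sm ℂ :=
  ⟨fun x => Complex.exp (∑ j, ζ j * (x j : ℂ)), by
    have h : ∀ j : Fin 3, ContDiff ℝ ∞ (fun x : E3 => ((x j : ℝ) : ℂ)) := fun j =>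
      Complex.ofRealCLM.contDiff.comp (EuclideanSpace.proj (𝕜 := ℝ) j).contDiff
    have h2 : ContDiff ℝ ∞ (fun x : E3 => ∑ j, ζ j * ((x j : ℝ) : ℂ)) :=
      ContDiff.sum fun j _ => contDiff_const.mul (h j)
    exact (Complex.contDiff_exp (𝕜 := ℝ)).comp h2⟩

lemma exS_apply (ζ : Fin 3 → ℂ) (x : E3) :
    (exS ζ : E3 → ℂ) x = Complex.exp (∑ j, ζ j * (x j : ℂ)) := rfl

lemma exS_neg (ζ : Fin 3 → ℂ) : exS ζ * exS (-ζ) = 1 := by
  refine Subtype.ext (funext fun x => ?_)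
  change Complex.exp _ * Complex.exp _ = 1
  rw [← Complex.exp_add, ← Finset.sum_add_distrib]; simp

lemma exS_d (ζ : Fin 3 → ℂ) (j : Fin 3) :
    (derS ℂ).d j (exS ζ) = algebraMap ℂ (Sm ℂ) (ζ j) * exS ζ := by
  refine Subtype.ext (funext fun x => ?_)
  have h : ∀ i : Fin 3, HasFDerivAt (fun y : E3 => ζ i * (y i : ℂ))
      (ζ i • (Complex.ofRealCLM.comp (EuclideanSpace.proj (𝕜 := ℝ) i))) x := fun i =>
    ((Complex.ofRealCLM.comp (EuclideanSpace.proj (𝕜 := ℝ) i)).hasFDerivAt).const_mul (ζ i)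
  have h2 := (HasFDerivAt.fun_sum (u := Finset.univ) fun i _ => h i).cexp
  change fderiv ℝ (fun y : E3 => Complex.exp (∑ i, ζ i * (y i : ℂ))) x (ev j) =
    ζ j * Complex.exp _
  rw [h2.fderiv]
  fin_cases j <;> simp [Fin.sum_univ_three, mul_comm]

end Vale.Agent.P136
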